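import Mathlib

set_option autoImplicit false
set_option linter.all false

/-!
# P054 / T3 / H187: the arithmetic of the planar block

* `ps_level`: a level `m` with `2 ^ m ≤ C' Θ` at which the gain `2 ^ (-(4/5) (n+1) m)` of the cells
  beats `Θ` times the number of classes on a plane;
* `ps_small`: powers of `Θ = β ^ (c₀ h + c₂)` are smaller than any power of `t`.
-/

namespace Vale.Agent.P054.T3.H187

open Filter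

theorem ps_level (n : ℕ) (hn : 3 ≤ n) (C : ℕ) (hC : 1 ≤ C) : ∃ C' : ℕ, 1 ≤ C' ∧ ∀ Θ : ℕ, 1 ≤ Θ →
    ∃ m : ℕ, 2 ^ m ≤ C' * Θ ∧
      ((C * Θ * ((2 * (2 * (2 * (n + 1)) ^ 2 * 2 ^ m + 2)) ^ 2 + 1) : ℕ) : ℝ) *
        (4 * (2 : ℝ) ^ (-(((2 * (n + 1)) * m : ℕ) : ℝ) * ((7 : ℝ) / 5 - 1))) ≤ 1 := by
  obtain ⟨B, hB⟩ : ∃ B : ℕ, B = (2 * (2 * (2 * (n + 1)) ^ 2 + 2)) ^ 2 + 1 := ⟨_, rfl⟩
  have hB1 : 1 ≤ B := by omega
  refine ⟨8 * C * B, by nlinarith, fun Θ hΘ => ?_⟩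
  obtain ⟨x, hx⟩ : ∃ x : ℕ, x = 4 * C * B * Θ := ⟨_, rfl⟩
  have hCBΘ : 1 ≤ C * B * Θ := Nat.one_le_iff_ne_zero.2 (by positivity)
  have hx4 : 4 ≤ x := by rw [hx]; nlinarith
  refine ⟨Nat.clog 2 x, ?_, ?_⟩
  · have h1 : 2 ^ (Nat.clog 2 x - 1) < x := Nat.pow_pred_clog_lt_self (by norm_num) (by omega)
    have h2 : 0 < Nat.clog 2 x := Nat.clog_pos (by norm_num) (by omega)
    calc 2 ^ Nat.clog 2 x = 2 * 2 ^ (Nat.clog 2 x - 1) := by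
          rw [← pow_succ', Nat.sub_add_cancel h2]
      _ ≤ 2 * x := by omega
      _ = 8 * C * B * Θ := by rw [hx]; ring
  · set m := Nat.clog 2 x with hm
    have h1 : x ≤ 2 ^ m := Nat.le_pow_clog (by norm_num) x
    have h2m : 1 ≤ 2 ^ m := Nat.one_le_two_pow
    -- the number of classes
    have h2 : (2 * (2 * (2 * (n + 1)) ^ 2 * 2 ^ m + 2)) ^ 2 + 1 ≤ B * (2 ^ m) ^ 2 := by
      rw [hB]
      have h3 : 2 * (2 * (2 * (n + 1)) ^ 2 * 2 ^ m + 2) ≤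
          (2 * (2 * (2 * (n + 1)) ^ 2 + 2)) * 2 ^ m := by nlinarith
      have h4 := Nat.pow_le_pow_left h3 2
      rw [mul_pow] at h4
      have h5 : 1 ≤ (2 ^ m) ^ 2 := Nat.one_le_pow _ _ h2m
      nlinarith
    have h3 : (2 : ℝ) ^ (-(((2 * (n + 1)) * m : ℕ) : ℝ) * ((7 : ℝ) / 5 - 1)) ≤
        ((2 : ℝ) ^ m) ^ (-(3 : ℝ)) := by
      rw [← Real.rpow_natCast, ← Real.rpow_mul (by norm_num)]
      apply Real.rpow_le_rpow_of_exponent_le (by norm_num)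
      have h4 : (3 : ℝ) ≤ n := by exact_mod_cast hn
      have h5 : (0 : ℝ) ≤ m := Nat.cast_nonneg m
      push_cast
      nlinarith
    have hX : (1 : ℝ) ≤ (2 : ℝ) ^ m := one_le_pow₀ (by norm_num)
    have hX0 : (0 : ℝ) < (2 : ℝ) ^ m := by linarith
    have h4 : ((2 : ℝ) ^ m) ^ (-(3 : ℝ)) = 1 / ((2 : ℝ) ^ m) ^ 3 := by
      rw [Real.rpow_neg hX0.le]
      rw [show ((3 : ℝ)) = ((3 : ℕ) : ℝ) by norm_num, Real.rpow_natCast, one_div]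
    have h5 : ((C * Θ * ((2 * (2 * (2 * (n + 1)) ^ 2 * 2 ^ m + 2)) ^ 2 + 1) : ℕ) : ℝ) ≤
        (C * Θ * B : ℕ) * ((2 : ℝ) ^ m) ^ 2 := by
      have h6 : C * Θ * ((2 * (2 * (2 * (n + 1)) ^ 2 * 2 ^ m + 2)) ^ 2 + 1) ≤
          C * Θ * B * (2 ^ m) ^ 2 := by
        rw [mul_assoc (C * Θ)]
        exact Nat.mul_le_mul_left _ h2
      calc ((C * Θ * ((2 * (2 * (2 * (n + 1)) ^ 2 * 2 ^ m + 2)) ^ 2 + 1) : ℕ) : ℝ)
          ≤ ((C * Θ * B * (2 ^ m) ^ 2 : ℕ) : ℝ) := by exact_mod_cast h6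
        _ = _ := by push_cast; ring
    have h6 : (4 * (C * Θ * B : ℕ) : ℝ) ≤ (2 : ℝ) ^ m := by
      have : 4 * (C * Θ * B) ≤ 2 ^ m := by
        refine le_trans (le_of_eq ?_) h1
        rw [hx]; ring
      exact_mod_cast this
    calc _ ≤ ((C * Θ * B : ℕ) * ((2 : ℝ) ^ m) ^ 2) * (4 * (1 / ((2 : ℝ) ^ m) ^ 3)) := by
          refine mul_le_mul h5 ?_ (by positivity) (by positivity)
          rw [← h4]
          exact mul_le_mul_of_nonneg_left h3 (by norm_num)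
      _ = (4 * (C * Θ * B : ℕ)) / (2 : ℝ) ^ m := by
          field_simp
      _ ≤ 1 := (div_le_one hX0).2 h6

theorem ps_small (c₀ a Λ₁ : ℕ) (c₂ : ℕ → ℕ) {e₀ : ℝ} (he : 0 < e₀) : ∃ L₀ : ℕ, 1 ≤ L₀ ∧
    ∀ L : ℕ, L₀ ≤ L → ∀ β : ℕ, 1 ≤ β → ∃ t₀ : ℕ, ∀ t : ℕ, t₀ ≤ t → 1 ≤ t → ∀ τ ell h : ℕ,
      (β ^ L) ^ ell ≤ τ → τ ≤ Λ₁ * t → h ≤ ell →
      (((β ^ (c₀ * h + c₂ L)) ^ a : ℕ) : ℝ) ≤ (t : ℝ) ^ e₀ := by
  obtain ⟨L₀, hL₀⟩ := exists_nat_ge (2 * (c₀ * a : ℝ) / e₀)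
  refine ⟨max L₀ 1, le_max_right _ _, fun L hL β hβ => ?_⟩
  have hL1 : 1 ≤ L := (le_max_right _ _).trans hL
  have hL0 : (0 : ℝ) < L := by exact_mod_cast hL1
  have hLe : 2 * (c₀ * a : ℝ) / e₀ ≤ L := hL₀.trans (by exact_mod_cast (le_max_left _ _).trans hL)
  have hexp : (c₀ * a : ℝ) / L ≤ e₀ / 2 := by
    rw [div_le_iff₀ hL0]
    rw [div_le_iff₀ he] at hLe
    nlinarith
  obtain ⟨t₀, ht₀⟩ : ∃ t₀ : ℕ, ∀ t : ℕ, t₀ ≤ t →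
      ((β ^ (c₂ L * a) : ℕ) : ℝ) * (max (Λ₁ : ℝ) 1) ^ (e₀ / 2) ≤ (t : ℝ) ^ (e₀ / 2) := by
    have h1 := (tendsto_rpow_atTop (show 0 < e₀ / 2 by positivity)).comp
      tendsto_natCast_atTop_atTop
    have h2 := h1.eventually_ge_atTop
      (((β ^ (c₂ L * a) : ℕ) : ℝ) * (max (Λ₁ : ℝ) 1) ^ (e₀ / 2))
    rw [Filter.eventually_atTop] at h2
    exact h2
  refine ⟨t₀, fun t ht ht1 τ ell h h1 h2 h3 => ?_⟩
  have htr : (1 : ℝ) ≤ t := by exact_mod_cast ht1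
  have ht0 : (0 : ℝ) < t := by linarith
  have hβr : (1 : ℝ) ≤ β := by exact_mod_cast hβ
  have hβ0 : (0 : ℝ) < β := by linarith
  have hΛ : (1 : ℝ) ≤ max (Λ₁ : ℝ) 1 := le_max_right _ _
  have hy : (1 : ℝ) ≤ max (Λ₁ : ℝ) 1 * t := by nlinarith
  -- `β ^ ell ≤ (Λ t) ^ (1/L)`
  have h4 : ((β : ℝ) ^ ell) ^ L ≤ max (Λ₁ : ℝ) 1 * t := by
    have h5 : (((β ^ L) ^ ell : ℕ) : ℝ) ≤ ((Λ₁ * t : ℕ) : ℝ) := by exact_mod_cast h1.trans h2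
    push_cast at h5
    rw [← pow_mul, mul_comm ell L, pow_mul]
    refine h5.trans ?_
    exact mul_le_mul_of_nonneg_right (le_max_left _ _) ht0.le
  have h5 : (β : ℝ) ^ ell ≤ (max (Λ₁ : ℝ) 1 * t) ^ (1 / (L : ℝ)) := by
    have h6 : (((β : ℝ) ^ ell) ^ L) ^ (1 / (L : ℝ)) ≤ (max (Λ₁ : ℝ) 1 * t) ^ (1 / (L : ℝ)) :=
      Real.rpow_le_rpow (by positivity) h4 (by positivity)
    rwa [← Real.rpow_natCast ((β : ℝ) ^ ell) L, ← Real.rpow_mul (by positivity),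
      mul_one_div_cancel hL0.ne', Real.rpow_one] at h6
  have h6 : (β : ℝ) ^ (c₀ * h * a) ≤ (max (Λ₁ : ℝ) 1 * t) ^ (e₀ / 2) := by
    calc (β : ℝ) ^ (c₀ * h * a) ≤ (β : ℝ) ^ (ell * (c₀ * a)) := by
          apply pow_le_pow_right₀ hβr
          calc c₀ * h * a = h * (c₀ * a) := by ring
            _ ≤ ell * (c₀ * a) := Nat.mul_le_mul_right _ h3
      _ = ((β : ℝ) ^ ell) ^ (c₀ * a) := by rw [pow_mul]
      _ ≤ ((max (Λ₁ : ℝ) 1 * t) ^ (1 / (L : ℝ))) ^ (c₀ * a) :=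
          pow_le_pow_left₀ (by positivity) h5 _
      _ = (max (Λ₁ : ℝ) 1 * t) ^ ((c₀ * a : ℝ) / L) := by
          rw [← Real.rpow_natCast, ← Real.rpow_mul (by positivity)]
          congr 1
          push_cast
          ring
      _ ≤ _ := Real.rpow_le_rpow_of_exponent_le hy hexp
  have h7 : (((β ^ (c₀ * h + c₂ L)) ^ a : ℕ) : ℝ) =
      (β : ℝ) ^ (c₀ * h * a) * ((β ^ (c₂ L * a) : ℕ) : ℝ) := by
    push_cast
    rw [← pow_mul, add_mul, pow_add]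
  rw [h7]
  calc (β : ℝ) ^ (c₀ * h * a) * ((β ^ (c₂ L * a) : ℕ) : ℝ)
      ≤ (max (Λ₁ : ℝ) 1 * t) ^ (e₀ / 2) * ((β ^ (c₂ L * a) : ℕ) : ℝ) :=
        mul_le_mul_of_nonneg_right h6 (by positivity)
    _ = (((β ^ (c₂ L * a) : ℕ) : ℝ) * (max (Λ₁ : ℝ) 1) ^ (e₀ / 2)) * (t : ℝ) ^ (e₀ / 2) := by
        rw [Real.mul_rpow (by positivity) ht0.le]; ring
    _ ≤ (t : ℝ) ^ (e₀ / 2) * (t : ℝ) ^ (e₀ / 2) :=
        mul_le_mul_of_nonneg_right (ht₀ t ht) (by positivity)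
    _ = (t : ℝ) ^ e₀ := by rw [← Real.rpow_add ht0]; congr 1; ring

end Vale.Agent.P054.T3.H187
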