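import Vale.Agent.P054.T2.H930.Germ2

set_option autoImplicit false
set_option linter.all false

/-!
# P054 / T3 / H187: systems of polynomials on a line

* `exists_dep_zeros`: the points of a line at which the gradients of `f_1, …, f_m` (degrees `≤ W`)
  are dependent are `≤ m W` in number, if the gradients are independent at one point of the line;
* `grad_line_eq_zero`: a polynomial of degree `≤ W` with more than `W` zeros on the line vanishes on
  it, and its gradient kills the direction;
* `not_linInd_of_two`: `n - 1` independent covectors do not kill two independent vectors.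
-/

namespace Vale.Agent.P054.T3.H187

open Finset MvPolynomial Module
open Vale.Agent.P054.T2.H930 (grad)

theorem totalDegree_pderiv_le₀ {κ : Type*} (i : κ) (F : MvPolynomial κ ℝ) :
    (pderiv i F).totalDegree ≤ F.totalDegree := by
  classical
  refine Finset.sup_le fun s hs => ?_
  rw [MvPolynomial.mem_support_iff, MvPolynomial.coeff_pderiv] at hs
  have h1 : MvPolynomial.coeff (s + Finsupp.single i 1) F ≠ 0 := fun h => hs (by rw [h, zero_mul])
  have h2 := MvPolynomial.le_totalDegree (MvPolynomial.mem_support_iff.2 h1)
  have h3 : ((s + Finsupp.single i 1).sum fun _ e => e) = (s.sum fun _ e => e) + 1 := by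
    rw [Finsupp.sum_add_index' (fun _ => rfl) (fun _ _ _ => rfl), Finsupp.sum_single_index rfl]
  omega

/-- restriction to the line `x + t y` -/
noncomputable def resl {κ : Type*} (x y : κ → ℝ) (f : MvPolynomial κ ℝ) : Polynomial ℝ :=
  aeval (fun i => Polynomial.C (x i) + Polynomial.C (y i) * Polynomial.X) f

theorem resl_eval {κ : Type*} (x y : κ → ℝ) (f : MvPolynomial κ ℝ) (t : ℝ) :
    (resl x y f).eval t = eval (x + t • y) f := by
  unfold resl
  induction f using MvPolynomial.induction_on with
  | C a => simp
  | add p q hp hq => rw [map_add, Polynomial.eval_add, hp, hq, map_add]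
  | mul_X p i hp =>
    rw [map_mul, Polynomial.eval_mul, hp, map_mul, aeval_X, eval_X]
    simp only [Polynomial.eval_add, Polynomial.eval_C, Polynomial.eval_mul, Polynomial.eval_X,
      Pi.add_apply, Pi.smul_apply, smul_eq_mul]
    ring

theorem resl_natDegree {κ : Type*} (x y : κ → ℝ) (f : MvPolynomial κ ℝ) :
    (resl x y f).natDegree ≤ f.totalDegree := by
  have := MvPolynomial.aeval_natDegree_le (m := f.totalDegree) (n := 1) f le_rfl
    (fun i => Polynomial.C (x i) + Polynomial.C (y i) * Polynomial.X) (fun i => by
      refine (Polynomial.natDegree_add_le _ _).trans (max_le (by simp) ?_)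
      refine (Polynomial.natDegree_C_mul_le _ _).trans ?_
      exact Polynomial.natDegree_X_le)
  rw [mul_one] at this
  exact this

theorem resl_derivative {κ : Type*} [Fintype κ] (x y : κ → ℝ) (f : MvPolynomial κ ℝ) :
    Polynomial.derivative (resl x y f) = ∑ i, Polynomial.C (y i) * resl x y (pderiv i f) := by
  classical
  induction f using MvPolynomial.induction_on with
  | C a =>
    unfold resl
    simp [pderiv_C]
  | add p q hp hq =>
    have h1 : resl x y (p + q) = resl x y p + resl x y q := by unfold resl; rw [map_add]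
    have h2 : ∀ i, resl x y (pderiv i (p + q)) = resl x y (pderiv i p) + resl x y (pderiv i q) := by
      intro i; unfold resl; rw [map_add, map_add]
    rw [h1, map_add, hp, hq, ← Finset.sum_add_distrib]
    exact Finset.sum_congr rfl fun i _ => by rw [h2, mul_add]
  | mul_X p j hp =>
    have h1 : resl x y (p * X j) = resl x y p * (Polynomial.C (x j) +
        Polynomial.C (y j) * Polynomial.X) := by
      unfold resl; rw [map_mul, aeval_X]
    have h2 : ∀ i, resl x y (pderiv i (p * X j)) = resl x y (pderiv i p) *
        (Polynomial.C (x j) + Polynomial.C (y j) * Polynomial.X) +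
        resl x y p * (if i = j then 1 else 0) := by
      intro i
      rw [(pderiv i).leibniz, smul_eq_mul, smul_eq_mul, pderiv_X]
      unfold resl
      rw [map_add, map_mul, map_mul, aeval_X]
      rcases eq_or_ne i j with rfl | h
      · simp only [Pi.single_eq_same, map_one, if_true]; ring
      · rw [Pi.single_eq_of_ne (Ne.symm h), if_neg h, map_zero]; ring
    rw [h1, Polynomial.derivative_mul, hp]
    simp only [h2]
    rw [Finset.sum_mul]
    have h3 : Polynomial.derivative (Polynomial.C (x j) + Polynomial.C (y j) * Polynomial.X) =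
        Polynomial.C (y j) := by
      simp
    rw [h3]
    have h4 : resl x y p * Polynomial.C (y j) =
        ∑ i, Polynomial.C (y i) * (resl x y p * (if i = j then 1 else 0)) := by
      rw [Finset.sum_eq_single j]
      · rw [if_pos rfl, mul_one, mul_comm]
      · intro i _ hi
        rw [if_neg hi, mul_zero, mul_zero]
      · intro h; exact absurd (Finset.mem_univ _) h
    rw [h4, ← Finset.sum_add_distrib]
    exact Finset.sum_congr rfl fun i _ => by ring

/-- more than `W` zeros on the line: the polynomial vanishes on the line -/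
theorem resl_eq_zero {κ : Type*} (x y : κ → ℝ) (f : MvPolynomial κ ℝ) {W : ℕ}
    (hf : f.totalDegree ≤ W) (T : Finset ℝ) (hT : W < T.card)
    (h0 : ∀ t ∈ T, eval (x + t • y) f = 0) : resl x y f = 0 := by
  by_contra hne
  have h1 : T.card ≤ (resl x y f).natDegree := by
    have h2 : T ⊆ (resl x y f).roots.toFinset := by
      intro t ht
      rw [Multiset.mem_toFinset, Polynomial.mem_roots hne, Polynomial.IsRoot.def, resl_eval]
      exact h0 t ht
    exact (Finset.card_le_card h2).trans ((Multiset.toFinset_card_le _).trans
      (Polynomial.card_roots' _))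
  have h2 := resl_natDegree x y f
  omega

/-- a polynomial which vanishes on the line has its gradient orthogonal to it -/
theorem grad_dot_eq_zero {κ : Type*} [Fintype κ] (x y : κ → ℝ) (f : MvPolynomial κ ℝ)
    (hf : resl x y f = 0) (t : ℝ) : ∑ i, grad (x + t • y) f i * y i = 0 := by
  have h1 := resl_derivative x y f
  rw [hf, Polynomial.derivative_zero] at h1
  have h2 := congrArg (Polynomial.eval t) h1
  rw [Polynomial.eval_zero, Polynomial.eval_finset_sum] at h2
  rw [h2]
  refine Finset.sum_congr rfl fun i _ => ?_
  rw [Polynomial.eval_mul, Polynomial.eval_C, resl_eval]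
  exact mul_comm _ _

/-- a family of independent covectors has a dual family of vectors -/
theorem exists_dual {κ : Type*} [Fintype κ] {m : ℕ} (g : Fin m → κ → ℝ)
    (hg : LinearIndependent ℝ g) :
    ∃ r : Fin m → κ → ℝ, ∀ i j, ∑ a, g i a * r j a = if i = j then 1 else 0 := by
  classical
  obtain ⟨φ, hφ⟩ : ∃ φ : (κ → ℝ) →ₗ[ℝ] (Fin m → ℝ), ∀ i, φ (g i) = Pi.single i 1 := by
    have h1 : LinearMap.ker (Fintype.linearCombination ℝ g) = ⊥ :=
      LinearMap.ker_eq_bot.2 (linearIndependent_iff_injective_fintypeLinearCombination.1 hg)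
    obtain ⟨φ, hφ⟩ := (Fintype.linearCombination ℝ g).exists_leftInverse_of_injective h1
    refine ⟨φ, fun i => ?_⟩
    have h2 := LinearMap.congr_fun hφ (Pi.single i 1)
    rw [LinearMap.comp_apply, LinearMap.id_apply, Fintype.linearCombination_apply_single,
      one_smul] at h2
    exact h2
  refine ⟨fun j a => φ (Pi.single a 1) j, fun i j => ?_⟩
  have h1 : g i = ∑ a, g i a • (Pi.single a 1 : κ → ℝ) := by
    funext b
    simp [Finset.sum_apply, Pi.single_apply]
  have h2 := congrFun (hφ i) j
  conv at h2 => lhs; rw [h1]
  rw [map_sum, Finset.sum_apply] at h2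
  have h3 : (Pi.single i 1 : Fin m → ℝ) j = if i = j then 1 else 0 := by
    rw [Pi.single_apply]
    rcases eq_or_ne i j with h | h
    · rw [if_pos h, if_pos h.symm]
    · rw [if_neg h, if_neg (Ne.symm h)]
  rw [h3] at h2
  rw [← h2]
  refine Finset.sum_congr rfl fun a _ => ?_
  rw [map_smul, Pi.smul_apply, smul_eq_mul]

/-- **few points with dependent gradients on a line** -/
theorem exists_dep_zeros {κ : Type*} [Fintype κ] {m W : ℕ} (f : Fin m → MvPolynomial κ ℝ)
    (hd : ∀ j, (f j).totalDegree ≤ W) (x y : κ → ℝ) (t₁ : ℝ)
    (h : LinearIndependent ℝ fun j => grad (x + t₁ • y) (f j)) :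
    ∃ T : Finset ℝ, T.card ≤ m * W ∧
      ∀ t, ¬ LinearIndependent ℝ (fun j => grad (x + t • y) (f j)) → t ∈ T := by
  classical
  obtain ⟨r, hr⟩ := exists_dual _ h
  set N : Matrix (Fin m) (Fin m) (Polynomial ℝ) := fun i j =>
    ∑ a, resl x y (pderiv a (f i)) * Polynomial.C (r j a) with hN
  have hev : ∀ t i j, (N i j).eval t = ∑ a, grad (x + t • y) (f i) a * r j a := by
    intro t i j
    rw [hN]
    simp only
    rw [Polynomial.eval_finset_sum]
    refine Finset.sum_congr rfl fun a _ => ?_
    rw [Polynomial.eval_mul, Polynomial.eval_C, resl_eval]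
    rfl
  have hdet : ∀ t, N.det.eval t =
      (Matrix.of fun i j => ∑ a, grad (x + t • y) (f i) a * r j a).det := by
    intro t
    have h1 : N.det.eval t = (Polynomial.evalRingHom t) N.det := rfl
    rw [h1, RingHom.map_det]
    congr 1
    ext i j
    exact hev t i j
  have hne : N.det ≠ 0 := by
    intro h0
    have h1 := hdet t₁
    rw [h0, Polynomial.eval_zero] at h1
    have h2 : (Matrix.of fun i j => ∑ a, grad (x + t₁ • y) (f i) a * r j a) =
        (1 : Matrix (Fin m) (Fin m) ℝ) := by
      ext i j
      rw [Matrix.of_apply, hr, Matrix.one_apply]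
    rw [h2, Matrix.det_one] at h1
    exact zero_ne_one h1
  have hdeg : N.det.natDegree ≤ m * W := by
    have h1 : ∀ i j, (N i j).natDegree ≤ W := by
      intro i j
      refine Polynomial.natDegree_sum_le_of_forall_le _ _ fun a _ => ?_
      refine (Polynomial.natDegree_mul_C_le _ _).trans ((resl_natDegree _ _ _).trans ?_)
      refine le_trans ?_ (hd i)
      exact totalDegree_pderiv_le₀ _ _
    rw [Matrix.det_apply]
    refine Polynomial.natDegree_sum_le_of_forall_le _ _ fun σ _ => ?_
    refine (Polynomial.natDegree_smul_le _ _).trans ?_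
    refine (Polynomial.natDegree_prod_le _ _).trans ?_
    refine (Finset.sum_le_card_nsmul _ _ W fun i _ => h1 _ _).trans ?_
    rw [Finset.card_univ, Fintype.card_fin, smul_eq_mul]
  refine ⟨N.det.roots.toFinset, ?_, fun t ht => ?_⟩
  · exact (Multiset.toFinset_card_le _).trans ((Polynomial.card_roots' _).trans hdeg)
  · rw [Multiset.mem_toFinset, Polynomial.mem_roots hne, Polynomial.IsRoot.def, hdet]
    rw [Fintype.not_linearIndependent_iff] at ht
    obtain ⟨c, hc, i₀, hi₀⟩ := ht
    rw [← Matrix.exists_vecMul_eq_zero_iff]
    refine ⟨c, fun h0 => hi₀ (by rw [h0]; rfl), ?_⟩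
    funext j
    rw [Matrix.vecMul, dotProduct]
    simp only [Pi.zero_apply]
    have h2 : ∀ a, ∑ i, c i * grad (x + t • y) (f i) a = 0 := by
      intro a
      have := congrFun hc a
      simpa [Finset.sum_apply] using this
    calc ∑ i, c i * ∑ a, grad (x + t • y) (f i) a * r j a
        = ∑ a, (∑ i, c i * grad (x + t • y) (f i) a) * r j a := by
          simp only [Finset.mul_sum, Finset.sum_mul]
          rw [Finset.sum_comm]
          exact Finset.sum_congr rfl fun a _ => Finset.sum_congr rfl fun i _ => by ring
      _ = 0 := by simp [h2]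

/-- independent covectors `g_1, …, g_{n-1}` on `ℝⁿ` kill only one direction -/
theorem not_linInd_of_two {n m : ℕ} (hm : n ≤ m + 1) (g : Fin m → Fin n → ℝ) (y z : Fin n → ℝ)
    (hy : ∀ j, ∑ i, g j i * y i = 0) (hz : ∀ j, ∑ i, g j i * z i = 0)
    (hyz : LinearIndependent ℝ ![y, z]) : ¬ LinearIndependent ℝ g := by
  classical
  intro hg
  have h1 : (Matrix.of g).rank = m := by
    have := hg.rank_matrix (M := Matrix.of g)
    rwa [Fintype.card_fin] at this
  have h2 : finrank ℝ (LinearMap.ker (Matrix.of g).mulVecLin) + m = n := by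
    have := (Matrix.of g).mulVecLin.finrank_range_add_finrank_ker
    rw [← Matrix.rank, h1] at this
    simp only [finrank_pi, Fintype.card_fin] at this
    omega
  have h3 : finrank ℝ (Submodule.span ℝ (Set.range ![y, z])) = 2 := by
    rw [finrank_span_eq_card hyz, Fintype.card_fin]
  have h4 : Submodule.span ℝ (Set.range ![y, z]) ≤ LinearMap.ker (Matrix.of g).mulVecLin := by
    rw [Submodule.span_le]
    rintro _ ⟨i, rfl⟩
    rw [SetLike.mem_coe, LinearMap.mem_ker]
    funext j
    rw [Matrix.mulVecLin_apply, Pi.zero_apply]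
    fin_cases i
    · exact hy j
    · exact hz j
  have h5 := Submodule.finrank_mono h4
  omega

end Vale.Agent.P054.T3.H187
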