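import Mathlib

set_option autoImplicit false
set_option linter.all false

/-!
# P054 / T3 / H187: pruning with two maps
-/

namespace Vale.Agent.P054.T3.H187

open Finset

/-- **pruning**: a subset `X ⊆ R` in which all fibres of `a` and of `b` have more than `M` elements,
up to `M (#a(R) + #b(R))` elements -/
theorem exists_prune {ε α β : Type*} [DecidableEq α] [DecidableEq β] (R : Finset ε) (a : ε → α) (b : ε → β) (M : ℕ) :
    ∃ X ⊆ R, R.card ≤ X.card + M * ((R.image a).card + (R.image b).card) ∧
      (∀ e ∈ X, M < (X.filter fun e' => a e' = a e).card) ∧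
      (∀ e ∈ X, M < (X.filter fun e' => b e' = b e).card) := by
  suffices h : ∀ (N : ℕ) (R : Finset ε), (R.image a).card + (R.image b).card ≤ N →
      ∃ X ⊆ R, R.card ≤ X.card + M * ((R.image a).card + (R.image b).card) ∧
        (∀ e ∈ X, M < (X.filter fun e' => a e' = a e).card) ∧
        (∀ e ∈ X, M < (X.filter fun e' => b e' = b e).card) from h _ R le_rfl
  intro N
  induction N with
  | zero =>
    intro R hR
    have h0 : (R.image a).card = 0 := by omega
    have h1 : R = ∅ := by
      rw [Finset.card_eq_zero, Finset.image_eq_empty] at h0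
      exact h0
    subst h1
    exact ⟨∅, Finset.Subset.refl _, by simp, by simp, by simp⟩
  | succ N ih =>
    intro R hR
    by_cases h : (∀ e ∈ R, M < (R.filter fun e' => a e' = a e).card) ∧
        (∀ e ∈ R, M < (R.filter fun e' => b e' = b e).card)
    · exact ⟨R, Finset.Subset.refl _, Nat.le_add_right _ _, h.1, h.2⟩
    rw [not_and_or] at h
    rcases h with h | h
    · push Not at h
      obtain ⟨e₀, he₀, h1⟩ := h
      have hsub : (R.filter fun e' => ¬ (a e' = a e₀)) ⊆ R := Finset.filter_subset _ _
      have ha : ((R.filter fun e' => ¬ (a e' = a e₀)).image a).card + 1 ≤ (R.image a).card := by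
        have h2 : (R.filter fun e' => ¬ (a e' = a e₀)).image a ⊆ (R.image a).erase (a e₀) := by
          intro x hx
          obtain ⟨e, he, rfl⟩ := Finset.mem_image.1 hx
          obtain ⟨h3, h4⟩ := Finset.mem_filter.1 he
          exact Finset.mem_erase.2 ⟨h4, Finset.mem_image_of_mem _ h3⟩
        have h3 := Finset.card_le_card h2
        have h4 : a e₀ ∈ R.image a := Finset.mem_image_of_mem _ he₀
        rw [Finset.card_erase_of_mem h4] at h3
        have h5 : 0 < (R.image a).card := Finset.card_pos.2 ⟨_, h4⟩
        omega
      have hb : ((R.filter fun e' => ¬ (a e' = a e₀)).image b).card ≤ (R.image b).card :=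
        Finset.card_le_card (Finset.image_subset_image hsub)
      obtain ⟨X, hX, h2, h3, h4⟩ := ih (R.filter fun e' => ¬ (a e' = a e₀)) (by omega)
      refine ⟨X, hX.trans hsub, ?_, h3, h4⟩
      have h5 : R.card = (R.filter fun e' => a e' = a e₀).card +
          (R.filter fun e' => ¬ (a e' = a e₀)).card :=
        (Finset.card_filter_add_card_filter_not _).symm
      have h6 : M * (((R.filter fun e' => ¬ (a e' = a e₀)).image a).card +
          ((R.filter fun e' => ¬ (a e' = a e₀)).image b).card) + M ≤
          M * ((R.image a).card + (R.image b).card) := by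
        have : ((R.filter fun e' => ¬ (a e' = a e₀)).image a).card +
          ((R.filter fun e' => ¬ (a e' = a e₀)).image b).card + 1 ≤
            (R.image a).card + (R.image b).card := by omega
        calc _ = M * (((R.filter fun e' => ¬ (a e' = a e₀)).image a).card +
          ((R.filter fun e' => ¬ (a e' = a e₀)).image b).card + 1) := by ring
          _ ≤ _ := Nat.mul_le_mul_left _ this
      omega
    · push Not at h
      obtain ⟨e₀, he₀, h1⟩ := h
      have hsub : (R.filter fun e' => ¬ (b e' = b e₀)) ⊆ R := Finset.filter_subset _ _
      have hb : ((R.filter fun e' => ¬ (b e' = b e₀)).image b).card + 1 ≤ (R.image b).card := by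
        have h2 : (R.filter fun e' => ¬ (b e' = b e₀)).image b ⊆ (R.image b).erase (b e₀) := by
          intro x hx
          obtain ⟨e, he, rfl⟩ := Finset.mem_image.1 hx
          obtain ⟨h3, h4⟩ := Finset.mem_filter.1 he
          exact Finset.mem_erase.2 ⟨h4, Finset.mem_image_of_mem _ h3⟩
        have h3 := Finset.card_le_card h2
        have h4 : b e₀ ∈ R.image b := Finset.mem_image_of_mem _ he₀
        rw [Finset.card_erase_of_mem h4] at h3
        have h5 : 0 < (R.image b).card := Finset.card_pos.2 ⟨_, h4⟩
        omega
      have ha : ((R.filter fun e' => ¬ (b e' = b e₀)).image a).card ≤ (R.image a).card :=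
        Finset.card_le_card (Finset.image_subset_image hsub)
      obtain ⟨X, hX, h2, h3, h4⟩ := ih (R.filter fun e' => ¬ (b e' = b e₀)) (by omega)
      refine ⟨X, hX.trans hsub, ?_, h3, h4⟩
      have h5 : R.card = (R.filter fun e' => b e' = b e₀).card +
          (R.filter fun e' => ¬ (b e' = b e₀)).card :=
        (Finset.card_filter_add_card_filter_not _).symm
      have h6 : M * (((R.filter fun e' => ¬ (b e' = b e₀)).image a).card +
          ((R.filter fun e' => ¬ (b e' = b e₀)).image b).card) + M ≤
          M * ((R.image a).card + (R.image b).card) := by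
        have : ((R.filter fun e' => ¬ (b e' = b e₀)).image a).card +
          ((R.filter fun e' => ¬ (b e' = b e₀)).image b).card + 1 ≤
            (R.image a).card + (R.image b).card := by omega
        calc _ = M * (((R.filter fun e' => ¬ (b e' = b e₀)).image a).card +
          ((R.filter fun e' => ¬ (b e' = b e₀)).image b).card + 1) := by ring
          _ ≤ _ := Nat.mul_le_mul_left _ this
      omega

end Vale.Agent.P054.T3.H187
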