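import Vale.Agent.P054.T3.H187.Star
import Vale.Agent.P054.T3.H187.Prune
import Vale.Agent.P054.T3.H637.CasePS
import Vale.Agent.P054.T3.H807.SideP

set_option autoImplicit false
set_option linter.all false

/-!
# P054 / T3 / H187: the planar edges `PSEdge` and their flats

`ps_flats`: up to `M` times the number of (vertex, class) pairs, the edges of `R` (all `PSEdge`) lie
in `⋃ F, SF F × RF F`, where `SF F`, `RF F` are the vertices in an isotropic plane `F`,
`M < #(SF F), #(RF F)`, and the points of `F` which lie in a second flat `F' ∋ s` are on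
`≤ (n - 1) W + 1` lines through `s` (`Flat2`).
-/

namespace Vale.Agent.P054.T3.H187

open Finset MvPolynomial Module
open Vale.Agent.P054.T2 Vale.Agent.P054.T2.SecC
open Vale.Agent.P054.T2.H686 (mu Qf Bf)
open Vale.Agent.P054.T2.H930 (grad)
open Vale.Agent.P054.T2.H192 (Iso)
open Vale.Agent.P054.T3.H637 (PSEdge)
open Vale.Agent.P054.T3.H533 (MuK card_leaf_edgesK)
open Vale.Agent.P054.T2.H269 (Cc)

variable {n : ℕ} {A : Finset (ZZ n × ZZ n)} {W D σ v : ℕ}

theorem card_image_le_of_imp {α β γ : Type*} [DecidableEq β] [DecidableEq γ] (R : Finset α)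
    (f : α → β) (g : α → γ) (h : ∀ a ∈ R, ∀ b ∈ R, g a = g b → f a = f b) :
    (R.image f).card ≤ (R.image g).card := by
  classical
  rcases R.eq_empty_or_nonempty with rfl | ⟨a₀, ha₀⟩
  · simp
  haveI : Nonempty α := ⟨a₀⟩
  have h1 : ∀ y ∈ R.image f, ∃ a ∈ R, f a = y := fun y hy => by
    obtain ⟨a, ha, rfl⟩ := Finset.mem_image.1 hy
    exact ⟨a, ha, rfl⟩
  choose! q hq using h1
  refine Finset.card_le_card_of_injOn (fun y => g (q y)) (fun y hy => ?_) (fun y hy z hz hyz => ?_)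
  · exact Finset.mem_coe.2 (Finset.mem_image_of_mem g (hq y hy).1)
  · have h2 := h _ (hq y hy).1 _ (hq z hz).1 hyz
    rw [(hq y hy).2, (hq z hz).2] at h2
    exact h2

/-- `V` is constant on the classes -/
theorem V_congr (S : Side n A W D σ v) {e e' : ZZ n × ZZ n} (he : e ∈ A) (he' : e' ∈ A)
    (hP : S.P e' = S.P e) : S.V e' = S.V e := by
  have hPr : S.Pr e' = S.Pr e := by
    unfold Side.Pr
    rw [hP]
  have key : ∀ {e e' : ZZ n × ZZ n}, e ∈ A → S.Pr e' = S.Pr e → ∀ x ∈ S.V e, x ∈ S.V e' := by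
    intro e e' he hPr x hx
    rw [S.mem_V] at hx ⊢
    intro l hl
    apply hx l
    rw [hPr] at hl
    have h1 := S.eval_eq_zero_of_mem_Pr he hl
    rw [eval_linL] at h1
    have h2 : linL l e.2 = linL l e'.2 := by
      unfold linL
      rw [sub_eq_zero.1 h1]
    rw [h2]
    exact hl
  exact le_antisymm (fun x hx => key he' hPr.symm x hx) (fun x hx => key he hPr x hx)

theorem leaf_zero (S : Side n A W D σ v) {e : ZZ n × ZZ n} (he : e ∈ A) (j : Fin (n - σ)) :
    eval (mu e.1 e.2) (S.f e.1 j) = 0 := by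
  have h1 := S.hzero e he (Fin.castAdd _ j)
  rw [S.hleft, eval_rename] at h1
  exact h1

/-- all vertices of a plane and a vertex `e.1` with many edges: a star -/
theorem side_star (S : Side n A W D 1 v) {X : Finset (ZZ n × ZZ n)} (hXA : X ⊆ A)
    {k M : ℕ} (hk : MuK A k) (hM : k * W ≤ M) (lab : ZZ n × ZZ n → AffineSubspace ℝ (ZZ n))
    (hlab : ∀ e ∈ X, e.1 ∈ lab e ∧ e.2 ∈ lab e)
    (hdim : ∀ e ∈ X, finrank ℝ (lab e).direction ≤ 2)
    (hinj : ∀ e ∈ X, ZInj (lab e).direction) {e : ZZ n × ZZ n} (he : e ∈ X)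
    (Y : Finset (ZZ n × ZZ n)) (hY : ∀ e' ∈ Y, e' ∈ X ∧ e'.1 = e.1 ∧ lab e' = lab e)
    (hbig : M < Y.card) :
    ∃ T : Finset (ZZ n), Star (S.f e.1) W e.1 (lab e).direction T := by
  classical
  have hT : ∀ r ∈ Y.image Prod.snd, (e.1, r) ∈ X ∧ lab (e.1, r) = lab e := by
    intro r hr
    obtain ⟨e', he', rfl⟩ := Finset.mem_image.1 hr
    obtain ⟨h1, h2, h3⟩ := hY e' he'
    have h4 : (e.1, e'.2) = e' := by rw [← h2]
    rw [h4]
    exact ⟨h1, h3⟩
  have h₁ : ∀ r ∈ Y.image Prod.snd, r - e.1 ∈ (lab e).direction := by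
    intro r hr
    obtain ⟨h1, h2⟩ := hT r hr
    have h3 : r ∈ lab (e.1, r) := (hlab (e.1, r) h1).2
    rw [h2] at h3
    exact AffineSubspace.vsub_mem_direction h3 (hlab e he).1
  have h₂ : ∀ r ∈ Y.image Prod.snd, (r - e.1).1 0 ≠ 0 := by
    intro r hr h0
    have h1 : e.1.1 0 ≠ r.1 0 := S.hne (e.1, r) (hXA (hT r hr).1)
    have h2 : r.1 0 - e.1.1 0 = 0 := h0
    exact h1 (by linarith)
  have h₃ : ∀ r ∈ Y.image Prod.snd, ∀ j, eval (mu e.1 r) (S.f e.1 j) = 0 := by
    intro r hr j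
    exact leaf_zero S (e := (e.1, r)) (hXA (hT r hr).1) j
  have h₄ : ∀ r ∈ Y.image Prod.snd, LinearIndependent ℝ fun j => grad (mu e.1 r) (S.f e.1 j) := by
    intro r hr
    exact S.hindf (e.1, r) (hXA (hT r hr).1)
  have h₅ : ∃ U : Finset (Fin n → ℝ), W < U.card ∧ ∀ u ∈ U, ∃ r ∈ Y.image Prod.snd,
      mu e.1 r = u := by
    refine ⟨Y.image fun e' => mu e'.1 e'.2, ?_, fun u hu => ?_⟩
    · have h1 := card_leaf_edgesK (A := Y) (hk.subset fun e' he' => hXA (hY e' he').1) e.1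
        (fun e' he' => (hY e' he').2.1)
      have h2 : k * W < k * (Y.image fun e' => mu e'.1 e'.2).card :=
        lt_of_le_of_lt hM (lt_of_lt_of_le hbig h1)
      exact Nat.lt_of_mul_lt_mul_left h2
    · obtain ⟨e', he', rfl⟩ := Finset.mem_image.1 hu
      exact ⟨e'.2, Finset.mem_image_of_mem _ he', by rw [(hY e' he').2.1]⟩
  exact ⟨Y.image Prod.snd, ⟨hdim e he, hinj e he, h₁, h₂, h₃, h₄, h₅⟩⟩

open Classical in
/-- **few multiple lines**, one side -/
theorem side_multi (hn : 1 ≤ n) (S : Side n A W D 1 v) {X : Finset (ZZ n × ZZ n)} (hXA : X ⊆ A)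
    {k M : ℕ} (hk : MuK A k) (hM : k * W ≤ M) (lab : ZZ n × ZZ n → AffineSubspace ℝ (ZZ n))
    (hlab : ∀ e ∈ X, e.1 ∈ lab e ∧ e.2 ∈ lab e)
    (hdim : ∀ e ∈ X, finrank ℝ (lab e).direction ≤ 2)
    (hZ : ∀ e ∈ X, ∀ e' ∈ X, finrank ℝ ((lab e).direction ⊔ (lab e').direction :
      Submodule ℝ (ZZ n)) ≤ 3 → ZInj ((lab e).direction ⊔ (lab e').direction))
    (hbig : ∀ e ∈ X, M < (X.filter fun e' => (e'.1, lab e') = (e.1, lab e)).card) :
    ∀ e ∈ X, ∃ U : Finset (ZZ n), U.card ≤ (n - 1) * W + 1 ∧ ∀ e' ∈ X, e'.1 = e.1 →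
      lab e' ≠ lab e → ∀ r, r ≠ e.1 → r ∈ lab e → r ∈ lab e' →
      ∃ u ∈ U, ∃ a : ℝ, r = e.1 + a • (u - e.1) := by
  have hinj : ∀ e ∈ X, ZInj (lab e).direction := by
    intro e he
    have h1 := hZ e he e he (by rw [sup_idem]; exact (hdim e he).trans (by omega))
    rwa [sup_idem] at h1
  have hstar : ∀ e ∈ X, ∃ T : Finset (ZZ n), Star (S.f e.1) W e.1 (lab e).direction T := by
    intro e he
    refine side_star S hXA hk hM lab hlab hdim hinj he
      (X.filter fun e' => (e'.1, lab e') = (e.1, lab e)) (fun e' he' => ?_) (hbig e he)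
    obtain ⟨h1, h2⟩ := Finset.mem_filter.1 he'
    exact ⟨h1, (Prod.ext_iff.1 h2).1, (Prod.ext_iff.1 h2).2⟩
  intro e he
  obtain ⟨T, hT⟩ := hstar e he
  obtain ⟨U, hU, h⟩ := star_multi (by omega) S.hW (fun j => S.hfdeg e.1 j) hT
  refine ⟨U, hU, fun e' he' h1 h2 r hr h3 h4 => ?_⟩
  obtain ⟨T', hT'⟩ := hstar e' he'
  rw [h1] at hT'
  have h5 : e.1 ∈ lab e' := by
    have := (hlab e' he').1
    rwa [h1] at this
  refine h _ T' hT' ?_ (hZ e he e' he') r hr
    (AffineSubspace.vsub_mem_direction h3 (hlab e he).1)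
    (AffineSubspace.vsub_mem_direction h4 h5)
  intro hd
  exact h2 (AffineSubspace.ext_of_direction_eq hd ⟨e.1, h5, (hlab e he).1⟩)

/-- the sets `SF F` of vertices in the isotropic planes `F ∈ 𝓕` -/
structure Flat2 (m M : ℕ) (V₀ : Finset (ZZ n)) (𝓕 : Finset (AffineSubspace ℝ (ZZ n)))
    (SF : AffineSubspace ℝ (ZZ n) → Finset (ZZ n)) : Prop where
  dim : ∀ F ∈ 𝓕, finrank ℝ F.direction ≤ 2
  iso : ∀ F ∈ 𝓕, Iso F.direction
  sub : ∀ F ∈ 𝓕, SF F ⊆ V₀
  mem : ∀ F ∈ 𝓕, ∀ s ∈ SF F, s ∈ F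
  big : ∀ F ∈ 𝓕, M < (SF F).card
  multi : ∀ F ∈ 𝓕, ∀ s ∈ SF F, ∃ U : Finset (ZZ n), U.card ≤ m ∧ ∀ r ∈ F, r ≠ s →
    (∃ F' ∈ 𝓕, F' ≠ F ∧ s ∈ SF F' ∧ r ∈ F') → ∃ u ∈ U, ∃ a : ℝ, r = s + a • (u - s)

/-- the flat of an edge -/
noncomputable def flat (S : Side n A W D σ v) (e : ZZ n × ZZ n) : AffineSubspace ℝ (ZZ n) :=
  AffineSubspace.mk' e.1 (S.V e)

theorem mem_swp' {X : Finset (ZZ n × ZZ n)} {e : ZZ n × ZZ n} (he : e ∈ X) : e.swap ∈ swp X :=
  mem_swp.2 (by rwa [Prod.swap_swap])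

open Classical in
/-- **the planar edges**: up to `M` times the number of (vertex, class) pairs they are covered by the
products `SF F × RF F` over isotropic planes -/
theorem ps_flats (hn : 1 ≤ n) {v₁ v₂ : ℕ} (S₁ : Side n A W D 1 v₂) (S₂ : Side n (swp A) W D 1 v₁)
    {G₁ G₂ : ℕ}
    (hgen : ∀ e ∈ A, ∀ e' ∈ A, finrank ℝ (S₁.V e ⊔ S₁.V e' : Submodule ℝ (ZZ n)) ≤ 3 →
      ZInj (S₁.V e ⊔ S₁.V e'))
    {k M : ℕ} (hk₁ : MuK A k) (hk₂ : MuK (swp A) k) (hM : k * W ≤ M)
    (R : Finset (ZZ n × ZZ n)) (hR : R ⊆ A) (hPS : ∀ e ∈ R, PSEdge S₁ S₂ G₁ G₂ e) :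
    ∃ (𝓕 : Finset (AffineSubspace ℝ (ZZ n))) (SF RF : AffineSubspace ℝ (ZZ n) → Finset (ZZ n)),
      R.card ≤ M * ((R.image fun e => (e.1, S₁.P e)).card +
        (R.image fun e => (e.2, S₂.P e.swap)).card) + ∑ F ∈ 𝓕, (SF F).card * (RF F).card ∧
      Flat2 ((n - 1) * W + 1) M (R.image Prod.fst) 𝓕 SF ∧
      Flat2 ((n - 1) * W + 1) M (R.image Prod.snd) 𝓕 RF := by
  set lab : ZZ n × ZZ n → AffineSubspace ℝ (ZZ n) := flat S₁ with hlabdef
  have hdir : ∀ e, (lab e).direction = S₁.V e := fun e => AffineSubspace.direction_mk' _ _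
  have hlab : ∀ e ∈ R, e.1 ∈ lab e ∧ e.2 ∈ lab e := by
    intro e he
    refine ⟨AffineSubspace.self_mem_mk' _ _, ?_⟩
    rw [hlabdef, flat, AffineSubspace.mem_mk', vsub_eq_sub, ← neg_sub]
    exact (S₁.V e).neg_mem (hPS e he).mem
  -- the labels are determined by the classes
  have ha : (R.image fun e => (e.1, lab e)).card ≤ (R.image fun e => (e.1, S₁.P e)).card := by
    refine card_image_le_of_imp R _ _ fun e he e' he' h => ?_
    have h1 : e.1 = e'.1 := (Prod.ext_iff.1 h).1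
    have h2 : S₁.P e = S₁.P e' := (Prod.ext_iff.1 h).2
    have h3 : S₁.V e = S₁.V e' := V_congr S₁ (hR he') (hR he) h2
    refine Prod.ext h1 ?_
    show flat S₁ e = flat S₁ e'
    rw [flat, flat, h3, h1]
  have hb : (R.image fun e => (e.2, lab e)).card ≤
      (R.image fun e => (e.2, S₂.P e.swap)).card := by
    refine card_image_le_of_imp R _ _ fun e he e' he' h => ?_
    have h1 : e.2 = e'.2 := (Prod.ext_iff.1 h).1
    have h2 : S₂.P e.swap = S₂.P e'.swap := (Prod.ext_iff.1 h).2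
    have h3 : S₂.V e.swap = S₂.V e'.swap :=
      V_congr S₂ (mem_swp' (hR he')) (mem_swp' (hR he)) h2
    have h4 : S₁.V e = S₁.V e' := by rw [(hPS e he).eq, (hPS e' he').eq, h3]
    refine Prod.ext h1 ?_
    refine AffineSubspace.ext_of_direction_eq (by rw [hdir, hdir, h4])
      ⟨e.2, (hlab e he).2, ?_⟩
    show e.2 ∈ lab e'
    rw [h1]
    exact (hlab e' he').2
  obtain ⟨X, hXR, hcard, hXa, hXb⟩ := exists_prune R (fun e => (e.1, lab e))
    (fun e => (e.2, lab e)) M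
  have hXA : X ⊆ A := hXR.trans hR
  have hlabX : ∀ e ∈ X, e.1 ∈ lab e ∧ e.2 ∈ lab e := fun e he => hlab e (hXR he)
  have hdimX : ∀ e ∈ X, finrank ℝ (lab e).direction ≤ 2 := fun e he => by
    rw [hdir]; exact (hPS e (hXR he)).dim
  have hgenX : ∀ e ∈ X, ∀ e' ∈ X, finrank ℝ ((lab e).direction ⊔ (lab e').direction :
      Submodule ℝ (ZZ n)) ≤ 3 → ZInj ((lab e).direction ⊔ (lab e').direction) := by
    intro e he e' he'
    rw [hdir, hdir]
    exact hgen e (hXA he) e' (hXA he')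
  have hm₁ := side_multi hn S₁ hXA hk₁ hM lab hlabX hdimX hgenX hXa
  -- the second side
  have hswf : ∀ e ∈ swp X, ((swp X).filter fun e' => (e'.1, lab e'.swap) =
      (e.1, lab e.swap)).card = (X.filter fun e' => (e'.2, lab e') =
      (e.swap.2, lab e.swap)).card := by
    intro e he
    have h1 : ((swp X).filter fun e' => (e'.1, lab e'.swap) = (e.1, lab e.swap)) =
        swp (X.filter fun e' => (e'.2, lab e') = (e.swap.2, lab e.swap)) := by
      ext e'
      rw [Finset.mem_filter, mem_swp, mem_swp, Finset.mem_filter]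
      rfl
    rw [h1]
    exact Finset.card_map _
  have hm₂ := side_multi hn S₂ (X := swp X) (fun e he => mem_swp.2 (hXA (mem_swp.1 he))) hk₂ hM
    (fun e => lab e.swap)
    (fun e he => by
      have := hlabX _ (mem_swp.1 he)
      exact ⟨this.2, this.1⟩)
    (fun e he => hdimX _ (mem_swp.1 he))
    (fun e he e' he' => hgenX _ (mem_swp.1 he) _ (mem_swp.1 he'))
    (fun e he => by
      rw [hswf e he]
      exact hXb _ (mem_swp.1 he))
  refine ⟨X.image lab, fun F => (X.filter fun e => lab e = F).image Prod.fst,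
    fun F => (X.filter fun e => lab e = F).image Prod.snd, ?_, ?_, ?_⟩
  · have h1 : X.card = ∑ F ∈ X.image lab, (X.filter fun e => lab e = F).card :=
      Finset.card_eq_sum_card_image lab X
    have h2 : X.card ≤ ∑ F ∈ X.image lab, ((X.filter fun e => lab e = F).image Prod.fst).card *
        ((X.filter fun e => lab e = F).image Prod.snd).card := by
      rw [h1]
      refine Finset.sum_le_sum fun F _ => ?_
      rw [← Finset.card_product]
      refine Finset.card_le_card fun e he => ?_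
      exact Finset.mem_product.2 ⟨Finset.mem_image_of_mem _ he, Finset.mem_image_of_mem _ he⟩
    refine hcard.trans ?_
    rw [add_comm]
    exact Nat.add_le_add (Nat.mul_le_mul_left _ (Nat.add_le_add ha hb)) h2
  · refine ⟨?_, ?_, ?_, ?_, ?_, ?_⟩
    · intro F hF
      obtain ⟨e, he, rfl⟩ := Finset.mem_image.1 hF
      exact hdimX e he
    · intro F hF
      obtain ⟨e, he, rfl⟩ := Finset.mem_image.1 hF
      rw [hdir]
      exact (hPS e (hXR he)).iso
    · intro F hF s hs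
      obtain ⟨e, he, rfl⟩ := Finset.mem_image.1 hs
      exact Finset.mem_image_of_mem _ (hXR (Finset.mem_filter.1 he).1)
    · intro F hF s hs
      obtain ⟨e, he, rfl⟩ := Finset.mem_image.1 hs
      obtain ⟨h1, h2⟩ := Finset.mem_filter.1 he
      rw [← h2]
      exact (hlabX e h1).1
    · intro F hF
      obtain ⟨e, he, rfl⟩ := Finset.mem_image.1 hF
      refine lt_of_lt_of_le (hXb e he) ?_
      refine Finset.card_le_card_of_injOn Prod.fst (fun e' he' => ?_) (fun e' he' e'' he'' h => ?_)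
      · obtain ⟨h1, h2⟩ := Finset.mem_filter.1 (Finset.mem_coe.1 he')
        exact Finset.mem_coe.2 (Finset.mem_image_of_mem _
          (Finset.mem_filter.2 ⟨h1, (Prod.ext_iff.1 h2).2⟩))
      · obtain ⟨h1, h2⟩ := Finset.mem_filter.1 (Finset.mem_coe.1 he')
        obtain ⟨h3, h4⟩ := Finset.mem_filter.1 (Finset.mem_coe.1 he'')
        exact Prod.ext h (((Prod.ext_iff.1 h2).1).trans ((Prod.ext_iff.1 h4).1).symm)
    · intro F hF s hs
      obtain ⟨e, he, rfl⟩ := Finset.mem_image.1 hs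
      obtain ⟨he1, rfl⟩ := Finset.mem_filter.1 he
      obtain ⟨U, hU, h⟩ := hm₁ e he1
      refine ⟨U, hU, fun r hr hrs hF' => ?_⟩
      obtain ⟨F', hF'1, hne, hs', hr'⟩ := hF'
      obtain ⟨e₁, he₁, h1⟩ := Finset.mem_image.1 hs'
      obtain ⟨k1, k1'⟩ := Finset.mem_filter.1 he₁
      exact h e₁ k1 h1 (by rw [k1']; exact hne) r hrs hr (by rw [k1']; exact hr')
  · refine ⟨?_, ?_, ?_, ?_, ?_, ?_⟩
    · intro F hF
      obtain ⟨e, he, rfl⟩ := Finset.mem_image.1 hF
      exact hdimX e he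
    · intro F hF
      obtain ⟨e, he, rfl⟩ := Finset.mem_image.1 hF
      rw [hdir]
      exact (hPS e (hXR he)).iso
    · intro F hF s hs
      obtain ⟨e, he, rfl⟩ := Finset.mem_image.1 hs
      exact Finset.mem_image_of_mem _ (hXR (Finset.mem_filter.1 he).1)
    · intro F hF s hs
      obtain ⟨e, he, rfl⟩ := Finset.mem_image.1 hs
      obtain ⟨h1, h2⟩ := Finset.mem_filter.1 he
      rw [← h2]
      exact (hlabX e h1).2
    · intro F hF
      obtain ⟨e, he, rfl⟩ := Finset.mem_image.1 hF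
      refine lt_of_lt_of_le (hXa e he) ?_
      refine Finset.card_le_card_of_injOn Prod.snd (fun e' he' => ?_) (fun e' he' e'' he'' h => ?_)
      · obtain ⟨h1, h2⟩ := Finset.mem_filter.1 (Finset.mem_coe.1 he')
        exact Finset.mem_coe.2 (Finset.mem_image_of_mem _
          (Finset.mem_filter.2 ⟨h1, (Prod.ext_iff.1 h2).2⟩))
      · obtain ⟨h1, h2⟩ := Finset.mem_filter.1 (Finset.mem_coe.1 he')
        obtain ⟨h3, h4⟩ := Finset.mem_filter.1 (Finset.mem_coe.1 he'')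
        exact Prod.ext (((Prod.ext_iff.1 h2).1).trans ((Prod.ext_iff.1 h4).1).symm) h
    · intro F hF s hs
      obtain ⟨e, he, rfl⟩ := Finset.mem_image.1 hs
      obtain ⟨he1, rfl⟩ := Finset.mem_filter.1 he
      obtain ⟨U, hU, h⟩ := hm₂ e.swap (mem_swp' he1)
      refine ⟨U, hU, fun r hr hrs hF' => ?_⟩
      obtain ⟨F', hF'1, hne, hs', hr'⟩ := hF'
      obtain ⟨e₁, he₁, h1⟩ := Finset.mem_image.1 hs'
      obtain ⟨k1, k1'⟩ := Finset.mem_filter.1 he₁
      exact h e₁.swap (mem_swp' k1) h1 (by simp only [Prod.swap_swap]; rw [k1']; exact hne)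
        r hrs (by simp only [Prod.swap_swap]; exact hr) (by
          simp only [Prod.swap_swap]; rw [k1']; exact hr')

open Classical in
/-- the number of (vertex, class) pairs -/
theorem card_vc_le (S : Side n A W D σ v) {τ : Fin (n - σ) → ℕ} (hτ1 : ∀ i, 1 ≤ τ i)
    (hτ : ∀ s i, (S.f s i).totalDegree ≤ τ i) (R : Finset (ZZ n × ZZ n)) (hR : R ⊆ A) :
    (R.image fun e => (e.1, S.P e)).card ≤
      (R.image Prod.fst).card * (Cc n * D ^ (2 * (n + 1)) * (∏ i, τ i)) := by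
  have h1 : (R.image fun e => (e.1, S.P e)) ⊆ (R.image Prod.fst).biUnion fun s =>
      ((R.filter fun e => e.1 = s).image S.P).image fun p => (s, p) := by
    intro x hx
    obtain ⟨e, he, rfl⟩ := Finset.mem_image.1 hx
    exact Finset.mem_biUnion.2 ⟨e.1, Finset.mem_image_of_mem _ he, Finset.mem_image_of_mem _
      (Finset.mem_image_of_mem _ (Finset.mem_filter.2 ⟨he, rfl⟩))⟩
  refine (Finset.card_le_card h1).trans (Finset.card_biUnion_le_card_mul _ _ _ fun s hs => ?_)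
  refine Finset.card_image_le.trans ?_
  exact Vale.Agent.P054.T3.H807.side_card_classesP S s hτ1 (hτ s) _
    ((Finset.filter_subset _ _).trans hR) fun e he => (Finset.mem_filter.1 he).2

open Classical in
theorem card_vc_le' (S : Side n (swp A) W D σ v) {τ : Fin (n - σ) → ℕ} (hτ1 : ∀ i, 1 ≤ τ i)
    (hτ : ∀ s i, (S.f s i).totalDegree ≤ τ i) (R : Finset (ZZ n × ZZ n)) (hR : R ⊆ A) :
    (R.image fun e => (e.2, S.P e.swap)).card ≤
      (R.image Prod.snd).card * (Cc n * D ^ (2 * (n + 1)) * (∏ i, τ i)) := by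
  have h1 := card_vc_le S hτ1 hτ (swp R) fun e he => mem_swp.2 (hR (mem_swp.1 he))
  have h2 : (swp R).image (fun e => (e.1, S.P e)) = R.image fun e => (e.2, S.P e.swap) := by
    ext x
    simp only [Finset.mem_image]
    constructor
    · rintro ⟨e, he, rfl⟩
      exact ⟨e.swap, mem_swp.1 he, by rw [Prod.swap_swap]; rfl⟩
    · rintro ⟨e, he, rfl⟩
      exact ⟨e.swap, mem_swp' he, rfl⟩
  have h3 : (swp R).image Prod.fst = R.image Prod.snd := by
    ext x
    simp only [Finset.mem_image]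
    constructor
    · rintro ⟨e, he, rfl⟩
      exact ⟨e.swap, mem_swp.1 he, rfl⟩
    · rintro ⟨e, he, rfl⟩
      exact ⟨e.swap, mem_swp' he, rfl⟩
  rw [h2, h3] at h1
  exact h1

end Vale.Agent.P054.T3.H187
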