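import Vale.Agent.P054.T3.H187.PSFlats
import Vale.Agent.P054.T3.H182.SecBCore
import Vale.Agent.P054.T2.H588.EdgeEz

set_option autoImplicit false
set_option linter.all false

/-!
# P054 / T3 / H187: the planar edges of the output of section B, in the space of pairs of points

`ps_out`: the flats of `ps_flats` for a `BOut` with `σ₁ = σ₂ = 1`, transported to `E n × E n`; the
multiplicity in the direction form of `H691.cntW`.
-/

namespace Vale.Agent.P054.T3.H187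

open Finset MvPolynomial Module
open Vale.Agent.P054.T2 Vale.Agent.P054.T2.SecC
open Vale.Agent.P054.T2.H686 (mu Qf Bf zt E Ez Gm zt_sub zt_injective Qf_zt_sub_eq_zero)
open Vale.Agent.P054.T2.H192 (Iso)
open Vale.Agent.P054.T3.H637 (PSEdge)
open Vale.Agent.P054.T3.H533 (MuK)
open Vale.Agent.P054.T3.H182 (BOut)
open Vale.Agent.P054.T2.H269 (Cc)

variable {n : ℕ}

/-- `zt B` as a linear map -/
noncomputable def ztl (B : E n ≃ₗᵢ[ℝ] E n) : (E n × E n) →ₗ[ℝ] ZZ n where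
  toFun := zt B
  map_add' x y := by
    have h := zt_sub B (x + y) y
    rw [add_sub_cancel_right] at h
    rw [h, sub_add_cancel]
  map_smul' c x := by
    ext i
    · simp only [zt, Prod.smul_fst, Prod.smul_snd, map_smul, Pi.smul_apply, PiLp.smul_apply,
        smul_eq_mul, RingHom.id_apply]
      ring
    · simp only [zt, Prod.smul_fst, Prod.smul_snd, map_smul, Pi.smul_apply, PiLp.smul_apply,
        smul_eq_mul, RingHom.id_apply]
      ring

theorem ztl_apply (B : E n ≃ₗᵢ[ℝ] E n) (x : E n × E n) : ztl B x = zt B x := rfl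

theorem ztl_injective (B : E n ≃ₗᵢ[ℝ] E n) : Function.Injective (ztl B) := zt_injective B

open Classical in
/-- the transported flats -/
theorem flat2_pull (B : E n ≃ₗᵢ[ℝ] E n) {m M : ℕ} (S : Finset (E n × E n))
    {V₀ : Finset (ZZ n)} (hV₀ : ∀ x ∈ V₀, ∃ s ∈ S, zt B s = x)
    {𝓕 : Finset (AffineSubspace ℝ (ZZ n))} {SF : AffineSubspace ℝ (ZZ n) → Finset (ZZ n)}
    (h : Flat2 m M V₀ 𝓕 SF) :
    (∀ F ∈ 𝓕, M < (S.filter fun s => zt B s ∈ SF F).card) ∧
    (∀ F ∈ 𝓕, (S.filter fun s => zt B s ∈ SF F).card = (SF F).card) ∧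
    (∀ F ∈ 𝓕, finrank ℝ (vectorSpan ℝ ((S.filter fun s => zt B s ∈ SF F : Finset (E n × E n)) :
      Set (E n × E n))) ≤ 2) ∧
    (∀ F ∈ 𝓕, ∀ s ∈ S.filter (fun s => zt B s ∈ SF F), ∀ r ∈ S.filter (fun s => zt B s ∈ SF F),
      s ≠ r → s.1 ≠ r.1 ∧ dist s.1 r.1 = dist s.2 r.2) ∧
    (∀ F ∈ 𝓕, ∀ s ∈ S.filter (fun s => zt B s ∈ SF F), ∃ U : Finset (Submodule ℝ (E n × E n)),
      U.card ≤ m ∧ ∀ F' ∈ 𝓕, F' ≠ F → s ∈ S.filter (fun s => zt B s ∈ SF F') →
        ∀ ℓ : Submodule ℝ (E n × E n),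
          (∃ r ∈ S.filter (fun s => zt B s ∈ SF F), r ≠ s ∧ Submodule.span ℝ {r - s} = ℓ) →
          (∃ r ∈ S.filter (fun s => zt B s ∈ SF F'), r ≠ s ∧ Submodule.span ℝ {r - s} = ℓ) →
          ℓ ∈ U) := by
  have hcard : ∀ F ∈ 𝓕, (S.filter fun s => zt B s ∈ SF F).card = (SF F).card := by
    intro F hF
    have h1 : (S.filter fun s => zt B s ∈ SF F).image (zt B) = SF F := by
      ext x
      constructor
      · intro hx
        obtain ⟨s, hs, rfl⟩ := Finset.mem_image.1 hx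
        exact (Finset.mem_filter.1 hs).2
      · intro hx
        obtain ⟨s, hs, rfl⟩ := hV₀ x (h.sub F hF hx)
        exact Finset.mem_image_of_mem _ (Finset.mem_filter.2 ⟨hs, hx⟩)
    have h2 := Finset.card_image_of_injective (S.filter fun s => zt B s ∈ SF F) (zt_injective B)
    rw [h1] at h2
    exact h2.symm
  refine ⟨fun F hF => by rw [hcard F hF]; exact h.big F hF, hcard, ?_, ?_, ?_⟩
  · intro F hF
    have h1 : vectorSpan ℝ ((S.filter fun s => zt B s ∈ SF F : Finset (E n × E n)) :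
        Set (E n × E n)) ≤ F.direction.comap (ztl B) := by
      rw [vectorSpan_def, Submodule.span_le]
      rintro x ⟨s, hs, r, hr, rfl⟩
      rw [SetLike.mem_coe, Submodule.mem_comap]
      show ztl B (s - r) ∈ F.direction
      rw [map_sub]
      exact AffineSubspace.vsub_mem_direction
        (h.mem F hF _ (Finset.mem_filter.1 (Finset.mem_coe.1 hs)).2)
        (h.mem F hF _ (Finset.mem_filter.1 (Finset.mem_coe.1 hr)).2)
    refine (Submodule.finrank_mono h1).trans ?_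
    refine le_trans ?_ (h.dim F hF)
    have h2 : ((F.direction.comap (ztl B)).map (ztl B)) ≤ F.direction :=
      Submodule.map_comap_le _ _
    refine le_trans ?_ (Submodule.finrank_mono h2)
    exact le_of_eq (LinearEquiv.finrank_eq
      (Submodule.equivMapOfInjective (ztl B) (ztl_injective B) _))
  · intro F hF s hs r hr hne
    have h1 := AffineSubspace.vsub_mem_direction
        (h.mem F hF _ (Finset.mem_filter.1 hs).2) (h.mem F hF _ (Finset.mem_filter.1 hr).2)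
    have h2 := (Qf_zt_sub_eq_zero B s r).1 (h.iso F hF _ h1)
    refine ⟨fun h3 => hne ?_, h2⟩
    rw [h3, dist_self] at h2
    exact Prod.ext h3 (dist_eq_zero.1 h2.symm)
  · intro F hF s hs
    obtain ⟨U, hU, hU2⟩ := h.multi F hF (zt B s) (Finset.mem_filter.1 hs).2
    refine ⟨U.image fun u => (Submodule.span ℝ {u - zt B s}).comap (ztl B),
      Finset.card_image_le.trans hU, fun F' hF' hne hs' ℓ hℓ1 hℓ2 => ?_⟩
    obtain ⟨r, hr1, hr2, rfl⟩ := hℓ1
    obtain ⟨r', hr'1, hr'2, hrr⟩ := hℓ2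
    have hsF' : zt B s ∈ F' := h.mem F' hF' _ (Finset.mem_filter.1 hs').2
    have hrF : zt B r ∈ F := h.mem F hF _ (Finset.mem_filter.1 hr1).2
    have hr'F' : zt B r' ∈ F' := h.mem F' hF' _ (Finset.mem_filter.1 hr'1).2
    have h1 : r - s ∈ Submodule.span ℝ {r' - s} := by
      rw [hrr]
      exact Submodule.mem_span_singleton_self _
    obtain ⟨c, hc⟩ := Submodule.mem_span_singleton.1 h1
    have h2 : zt B r - zt B s = c • (zt B r' - zt B s) := by
      have h3 := congrArg (ztl B) hc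
      rw [map_smul, map_sub, map_sub] at h3
      exact h3.symm
    have hrF' : zt B r ∈ F' := by
      have h3 := AffineSubspace.smul_vsub_vadd_mem F' c hr'F' hsF' hsF'
      rw [vsub_eq_sub, vadd_eq_add, ← h2, sub_add_cancel] at h3
      exact h3
    obtain ⟨u, hu, a, ha⟩ := hU2 (zt B r) hrF (fun h3 => hr2 (zt_injective B h3))
      ⟨F', hF', hne, (Finset.mem_filter.1 hs').2, hrF'⟩
    refine Finset.mem_image.2 ⟨u, hu, ?_⟩
    have ha' : ztl B (r - s) = a • (u - zt B s) := by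
      rw [map_sub, ztl_apply, ztl_apply, ha, add_sub_cancel_left]
    have ha0 : a ≠ 0 := by
      rintro rfl
      rw [zero_smul] at ha'
      have h3 : r - s = 0 := ztl_injective B (by rw [ha', map_zero])
      exact hr2 (sub_eq_zero.1 h3)
    ext x
    rw [Submodule.mem_comap, Submodule.mem_span_singleton, Submodule.mem_span_singleton]
    constructor
    · rintro ⟨b, hb⟩
      refine ⟨b / a, ztl_injective B ?_⟩
      rw [map_smul, ha', smul_smul, div_mul_cancel₀ _ ha0, hb]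
    · rintro ⟨b, rfl⟩
      exact ⟨b * a, by rw [map_smul, ha', smul_smul]⟩

open Classical in
/-- **the planar edges of a `BOut`** with `σ₁ = σ₂ = 1`: up to `Ψ M #vertices ∏ deg` edges they are
covered by the products `SF F × RF F` over planes (in the space of pairs of points) -/
theorem ps_out (hn : 3 ≤ n) {P : Finset (E n)} {B : E n ≃ₗᵢ[ℝ] E n} (hB : Gm P B)
    {k₀ k W D c₀ : ℕ} {E₂ : Finset (ZZ n × ZZ n)} (hE : E₂ ⊆ Ez P B k₀) {dF d1 d2 : ℕ → ℕ}
    (O : BOut n W D c₀ 1 1 E₂ P B dF d1 d2) (hd1 : ∀ j, 1 ≤ d1 j) (hd2 : ∀ j, 1 ≤ d2 j)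
    (hk₁ : MuK E₂ k) (hk₂ : MuK (swp E₂) k) {M : ℕ} (hM : k * W ≤ M) (G₁ G₂ : ℕ)
    (S : Finset (E n × E n)) (hS₁ : ∀ e ∈ E₂, ∃ s ∈ S, zt B s = e.1)
    (hS₂ : ∀ e ∈ E₂, ∃ s ∈ S, zt B s = e.2) :
    ∃ (𝓕 : Finset (AffineSubspace ℝ (ZZ n)))
      (SF RF : AffineSubspace ℝ (ZZ n) → Finset (E n × E n)),
      (∀ F ∈ 𝓕, SF F ⊆ S ∧ RF F ⊆ S ∧ M < (SF F).card ∧ M < (RF F).card) ∧
      (∀ F ∈ 𝓕, finrank ℝ (vectorSpan ℝ ((SF F : Finset (E n × E n)) : Set (E n × E n))) ≤ 2) ∧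
      (∀ F ∈ 𝓕, finrank ℝ (vectorSpan ℝ ((RF F : Finset (E n × E n)) : Set (E n × E n))) ≤ 2) ∧
      (∀ F ∈ 𝓕, ∀ s ∈ SF F, ∀ r ∈ SF F, s ≠ r → s.1 ≠ r.1 ∧ dist s.1 r.1 = dist s.2 r.2) ∧
      (∀ F ∈ 𝓕, ∀ s ∈ RF F, ∀ r ∈ RF F, s ≠ r → s.1 ≠ r.1 ∧ dist s.1 r.1 = dist s.2 r.2) ∧
      (∀ F ∈ 𝓕, ∀ s ∈ SF F, ∃ U : Finset (Submodule ℝ (E n × E n)), U.card ≤ (n - 1) * W + 1 ∧
        ∀ F' ∈ 𝓕, F' ≠ F → s ∈ SF F' → ∀ ℓ : Submodule ℝ (E n × E n),
          (∃ r ∈ SF F, r ≠ s ∧ Submodule.span ℝ {r - s} = ℓ) →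
          (∃ r ∈ SF F', r ≠ s ∧ Submodule.span ℝ {r - s} = ℓ) → ℓ ∈ U) ∧
      (∀ F ∈ 𝓕, ∀ s ∈ RF F, ∃ U : Finset (Submodule ℝ (E n × E n)), U.card ≤ (n - 1) * W + 1 ∧
        ∀ F' ∈ 𝓕, F' ≠ F → s ∈ RF F' → ∀ ℓ : Submodule ℝ (E n × E n),
          (∃ r ∈ RF F, r ≠ s ∧ Submodule.span ℝ {r - s} = ℓ) →
          (∃ r ∈ RF F', r ≠ s ∧ Submodule.span ℝ {r - s} = ℓ) → ℓ ∈ U) ∧
      (O.A.filter (PSEdge O.S₁ O.S₂ G₁ G₂)).card ≤
        Cc n * D ^ (2 * (n + 1)) * ((E₂.image Prod.fst).card * ((∏ i : Fin (n - 1), d1 i) * M)) +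
        Cc n * D ^ (2 * (n + 1)) * ((E₂.image Prod.snd).card * ((∏ i : Fin (n - 1), d2 i) * M)) +
        ∑ F ∈ 𝓕, (SF F).card * (RF F).card := by
  set R := O.A.filter (PSEdge O.S₁ O.S₂ G₁ G₂) with hR
  have hgen : ∀ e ∈ O.A, ∀ e' ∈ O.A,
      finrank ℝ (O.S₁.V e ⊔ O.S₁.V e' : Submodule ℝ (ZZ n)) ≤ 3 →
        ZInj (O.S₁.V e ⊔ O.S₁.V e') := by
    intro e he e' he' hd
    have h1 := H588.overK_V_Ez O.S₁ (hE (O.sub he)) (O.hst₁ e he)
    have h2 := H588.overK_V_Ez O.S₁ (hE (O.sub he')) (O.hst₁ e' he')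
    exact H588.genI (H588.GI_constF hB) (h1.sup h2) (by omega) (Or.inl (by omega))
  obtain ⟨𝓕, SF, RF, hcard, hSF, hRF⟩ := ps_flats (by omega) O.S₁ O.S₂ hgen
    (hk₁.subset O.sub) (hk₂.subset fun e he => mem_swp.2 (O.sub (mem_swp.1 he))) hM R
    (Finset.filter_subset _ _) fun e he => (Finset.mem_filter.1 he).2
  have hRE : R ⊆ E₂ := (Finset.filter_subset _ _).trans O.sub
  have hV₁ : ∀ x ∈ R.image Prod.fst, ∃ s ∈ S, zt B s = x := by
    intro x hx
    obtain ⟨e, he, rfl⟩ := Finset.mem_image.1 hx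
    exact hS₁ e (hRE he)
  have hV₂ : ∀ x ∈ R.image Prod.snd, ∃ s ∈ S, zt B s = x := by
    intro x hx
    obtain ⟨e, he, rfl⟩ := Finset.mem_image.1 hx
    exact hS₂ e (hRE he)
  obtain ⟨a1, a2, a3, a4, a5⟩ := flat2_pull B S hV₁ hSF
  obtain ⟨b1, b2, b3, b4, b5⟩ := flat2_pull B S hV₂ hRF
  refine ⟨𝓕, fun F => S.filter fun s => zt B s ∈ SF F, fun F => S.filter fun s => zt B s ∈ RF F,
    fun F hF => ⟨Finset.filter_subset _ _, Finset.filter_subset _ _, a1 F hF, b1 F hF⟩, a3, b3,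
    a4, b4, a5, b5, ?_⟩
  have h1 := card_vc_le O.S₁ (τ := fun i => d1 i) (fun i => hd1 _) (fun s i => O.hd1 s i) R
    (Finset.filter_subset _ _)
  have h2 := card_vc_le' O.S₂ (τ := fun i => d2 i) (fun i => hd2 _) (fun s i => O.hd2 s i) R
    (Finset.filter_subset _ _)
  have h3 : (R.image Prod.fst).card ≤ (E₂.image Prod.fst).card :=
    Finset.card_le_card (Finset.image_subset_image hRE)
  have h4 : (R.image Prod.snd).card ≤ (E₂.image Prod.snd).card :=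
    Finset.card_le_card (Finset.image_subset_image hRE)
  have h5 : ∑ F ∈ 𝓕, (SF F).card * (RF F).card = ∑ F ∈ 𝓕,
      (S.filter fun s => zt B s ∈ SF F).card * (S.filter fun s => zt B s ∈ RF F).card :=
    Finset.sum_congr rfl fun F hF => by rw [a2 F hF, b2 F hF]
  refine hcard.trans ?_
  rw [← h5]
  refine Nat.add_le_add_right ?_ _
  rw [mul_add]
  refine Nat.add_le_add ?_ ?_
  · calc M * (R.image fun e => (e.1, O.S₁.P e)).card
        ≤ M * ((E₂.image Prod.fst).card * (Cc n * D ^ (2 * (n + 1)) *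
          (∏ i : Fin (n - 1), d1 i))) :=
          Nat.mul_le_mul_left _ (h1.trans (Nat.mul_le_mul_right _ h3))
      _ = _ := by ring
  · calc M * (R.image fun e => (e.2, O.S₂.P e.swap)).card
        ≤ M * ((E₂.image Prod.snd).card * (Cc n * D ^ (2 * (n + 1)) *
          (∏ i : Fin (n - 1), d2 i))) :=
          Nat.mul_le_mul_left _ (h2.trans (Nat.mul_le_mul_right _ h4))
      _ = _ := by ring

end Vale.Agent.P054.T3.H187
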