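import Vale.Agent.P054.T3.H187.LineGrad
import Vale.Agent.P054.T3.H533.Deg0K
import Vale.Agent.P054.T2.H428.EdgeB

set_option autoImplicit false
set_option linter.all false

/-!
# P054 / T3 / H187: isotropic planes through a vertex, with many points on the leaf

`star_multi`: the leaf equations `f_1, …, f_m` (`n ≤ m + 1`) of the vertex `s` vanish, with
independent gradients, at more than `W` leaf points of the plane `s + V`; the points of `s + V` which
lie in a second such plane `s + V'` are on `≤ m W + 1` lines through `s`.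
-/

namespace Vale.Agent.P054.T3.H187

open Finset MvPolynomial Module
open Vale.Agent.P054.T2 Vale.Agent.P054.T2.SecC
open Vale.Agent.P054.T2.H686 (mu Qf Bf)
open Vale.Agent.P054.T2.H930 (grad)

variable {n : ℕ}

/-- the leaf point of a direction -/
noncomputable def muv (w : ZZ n) : Fin n → ℝ := fun i => w.1 i.succ / w.1 0

theorem mu_eq_muv (s r : ZZ n) : mu s r = muv (r - s) := by
  funext i
  unfold mu muv
  rw [Prod.fst_sub, Pi.sub_apply, Pi.sub_apply, ← neg_sub (r.1 i.succ), ← neg_sub (r.1 0),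
    neg_div_neg_eq]

theorem finrank_span_pair_eq {V : Type*} [AddCommGroup V] [Module ℝ V] {x y : V}
    (h : LinearIndependent ℝ ![x, y]) : finrank ℝ (Submodule.span ℝ ({x, y} : Set V)) = 2 := by
  have h1 := finrank_span_eq_card h
  have h2 : Set.range ![x, y] = ({x, y} : Set V) := by
    rw [Matrix.range_cons, Matrix.range_cons, Matrix.range_empty, Set.union_empty]
    rfl
  rw [h2, Fintype.card_fin] at h1
  exact h1

/-- a frame of a plane with two different leaf points -/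
theorem exists_frame {V : Submodule ℝ (ZZ n)} (hd : finrank ℝ V ≤ 2) {w w' : ZZ n} (hw : w ∈ V)
    (hw' : w' ∈ V) (h0 : w.1 0 ≠ 0) (h0' : w'.1 0 ≠ 0) (hne : muv w ≠ muv w') :
    ∃ w₀ ∈ V, ∃ w₁ ∈ V, w₀.1 0 = 1 ∧ w₁.1 0 = 0 ∧ w₁ ≠ 0 ∧
      ∀ x ∈ V, ∃ b : ℝ, x = x.1 0 • w₀ + b • w₁ := by
  set w₀ : ZZ n := (w.1 0)⁻¹ • w with hw₀
  set w₁ : ZZ n := (w'.1 0)⁻¹ • w' - w₀ with hw₁
  have m₀ : w₀ ∈ V := V.smul_mem _ hw
  have m₁ : w₁ ∈ V := V.sub_mem (V.smul_mem _ hw') m₀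
  have a₀ : w₀.1 0 = 1 := by
    rw [hw₀, Prod.smul_fst, Pi.smul_apply, smul_eq_mul, inv_mul_cancel₀ h0]
  have a₁ : w₁.1 0 = 0 := by
    rw [hw₁, Prod.fst_sub, Pi.sub_apply, a₀, Prod.smul_fst, Pi.smul_apply, smul_eq_mul,
      inv_mul_cancel₀ h0', sub_self]
  have ne₁ : w₁ ≠ 0 := by
    intro h
    apply hne
    have h2 : (w'.1 0)⁻¹ • w' = w₀ := sub_eq_zero.1 h
    funext i
    have h3 := congrArg (fun z : ZZ n => z.1 i.succ) h2
    simp only [hw₀, Prod.smul_fst, Pi.smul_apply, smul_eq_mul] at h3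
    unfold muv
    rw [div_eq_inv_mul, div_eq_inv_mul, h3]
  have hli : LinearIndependent ℝ ![w₀, w₁] := by
    rw [LinearIndependent.pair_iff]
    intro p q hpq
    have h1 := congrArg (fun z : ZZ n => z.1 0) hpq
    simp only [Prod.fst_add, Prod.smul_fst, Pi.add_apply, Pi.smul_apply, smul_eq_mul, a₀, a₁,
      mul_one, mul_zero, add_zero, Prod.fst_zero, Pi.zero_apply] at h1
    subst h1
    rw [zero_smul, zero_add] at hpq
    exact ⟨rfl, (smul_eq_zero.1 hpq).resolve_right ne₁⟩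
  have hsp : Submodule.span ℝ ({w₀, w₁} : Set (ZZ n)) = V := by
    refine Submodule.eq_of_le_of_finrank_le ?_ ?_
    · rw [Submodule.span_le]
      rintro z (rfl | rfl)
      · exact m₀
      · exact m₁
    · rw [finrank_span_pair_eq hli]; exact hd
  refine ⟨w₀, m₀, w₁, m₁, a₀, a₁, ne₁, fun x hx => ?_⟩
  rw [← hsp, Submodule.mem_span_pair] at hx
  obtain ⟨a, b, rfl⟩ := hx
  refine ⟨b, ?_⟩
  have : (a • w₀ + b • w₁).1 0 = a := by
    simp only [Prod.fst_add, Prod.smul_fst, Pi.add_apply, Pi.smul_apply, smul_eq_mul, a₀, a₁,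
      mul_one, mul_zero, add_zero]
  rw [this]

/-- tail of the first component -/
def tl (w : ZZ n) : Fin n → ℝ := fun i => w.1 i.succ

theorem muv_frame {w₀ w₁ : ZZ n} (a₀ : w₀.1 0 = 1) (a₁ : w₁.1 0 = 0) {a b : ℝ} (ha : a ≠ 0) :
    muv (a • w₀ + b • w₁) = tl w₀ + (b / a) • tl w₁ := by
  funext i
  have : (a • w₀ + b • w₁).1 0 = a := by
    simp only [Prod.fst_add, Prod.smul_fst, Pi.add_apply, Pi.smul_apply, smul_eq_mul, a₀, a₁,
      mul_one, mul_zero, add_zero]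
  unfold muv
  rw [this]
  simp only [Prod.fst_add, Prod.smul_fst, Pi.add_apply, Pi.smul_apply, smul_eq_mul, tl]
  field_simp

theorem eq_zero_of_tl {V : Submodule ℝ (ZZ n)} (hZ : ZInj V) {w : ZZ n} (hw : w ∈ V)
    (h0 : w.1 0 = 0) (ht : tl w = 0) : w = 0 := by
  refine hZ w hw ?_
  funext i
  refine Fin.cases ?_ (fun j => ?_) i
  · exact h0
  · exact congrFun ht j

/-- the plane `s + V` has more than `W` leaf points of `T`, at which the leaf equations vanish with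
independent gradients -/
structure Star {m : ℕ} (f : Fin m → MvPolynomial (Fin n) ℝ) (W : ℕ) (s : ZZ n)
    (V : Submodule ℝ (ZZ n)) (T : Finset (ZZ n)) : Prop where
  dim : finrank ℝ V ≤ 2
  inj : ZInj V
  mem : ∀ r ∈ T, r - s ∈ V
  ne : ∀ r ∈ T, (r - s).1 0 ≠ 0
  zero : ∀ r ∈ T, ∀ j, eval (mu s r) (f j) = 0
  ind : ∀ r ∈ T, LinearIndependent ℝ fun j => grad (mu s r) (f j)
  card : ∃ U : Finset (Fin n → ℝ), W < U.card ∧ ∀ u ∈ U, ∃ r ∈ T, mu s r = u

/-- the frame of a star: `f_j` vanishes on the line `tl w₀ + t tl w₁` -/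
theorem Star.frame {m W : ℕ} (hW : 1 ≤ W) {f : Fin m → MvPolynomial (Fin n) ℝ}
    (hf : ∀ j, (f j).totalDegree ≤ W) {s : ZZ n} {V : Submodule ℝ (ZZ n)} {T : Finset (ZZ n)}
    (h : Star f W s V T) :
    ∃ w₀ ∈ V, ∃ w₁ ∈ V, w₀.1 0 = 1 ∧ w₁.1 0 = 0 ∧ w₁ ≠ 0 ∧
      (∀ x ∈ V, ∃ b : ℝ, x = x.1 0 • w₀ + b • w₁) ∧ (∀ j, resl (tl w₀) (tl w₁) (f j) = 0) ∧
      ∃ t₁ : ℝ, LinearIndependent ℝ fun j => grad (tl w₀ + t₁ • tl w₁) (f j) := by
  classical
  obtain ⟨U, hU, hUT⟩ := h.card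
  obtain ⟨u, hu, u', hu', huu⟩ := Finset.one_lt_card.1 (lt_of_le_of_lt hW hU)
  obtain ⟨r, hr, hru⟩ := hUT u hu
  obtain ⟨r', hr', hru'⟩ := hUT u' hu'
  obtain ⟨w₀, m₀, w₁, m₁, a₀, a₁, ne₁, hsp⟩ := exists_frame h.dim (h.mem r hr) (h.mem r' hr')
    (h.ne r hr) (h.ne r' hr') (by rw [← mu_eq_muv, ← mu_eq_muv, hru, hru']; exact huu)
  have key : ∀ r ∈ T, ∃ t : ℝ, mu s r = tl w₀ + t • tl w₁ := by
    intro r hr
    obtain ⟨b, hb⟩ := hsp _ (h.mem r hr)
    refine ⟨b / (r - s).1 0, ?_⟩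
    rw [mu_eq_muv]
    conv_lhs => rw [hb]
    exact muv_frame a₀ a₁ (h.ne r hr)
  choose! t ht using key
  choose! q hq using hUT
  refine ⟨w₀, m₀, w₁, m₁, a₀, a₁, ne₁, hsp, fun j => ?_, t r, ?_⟩
  · refine resl_eq_zero _ _ _ (hf j) (U.image fun u => t (q u)) ?_ ?_
    · refine lt_of_lt_of_le hU (Finset.card_le_card_of_injOn (fun u => t (q u)) ?_ ?_) |>.trans_le
        le_rfl
      · intro u hu
        exact Finset.mem_coe.2 (Finset.mem_image_of_mem (fun u => t (q u)) hu)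
      · intro u hu u' hu' h3
        have h4 := hq u hu
        have h5 := hq u' hu'
        rw [← h4.2, ← h5.2, ht _ h4.1, ht _ h5.1]
        have h6 : t (q u) = t (q u') := h3
        rw [h6]
    · intro x hx
      obtain ⟨u, hu, rfl⟩ := Finset.mem_image.1 hx
      rw [← ht _ (hq u hu).1]
      exact h.zero _ (hq u hu).1 j
  · rw [← ht r hr]
    exact h.ind r hr

/-- **few multiple lines** through `s` in the plane of a star -/
theorem star_multi {m W : ℕ} (hm : n ≤ m + 1) (hW : 1 ≤ W) {f : Fin m → MvPolynomial (Fin n) ℝ}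
    (hf : ∀ j, (f j).totalDegree ≤ W) {s : ZZ n} {V : Submodule ℝ (ZZ n)} {T : Finset (ZZ n)}
    (h : Star f W s V T) :
    ∃ U : Finset (ZZ n), U.card ≤ m * W + 1 ∧ ∀ (V' : Submodule ℝ (ZZ n)) (T' : Finset (ZZ n)),
      Star f W s V' T' → V' ≠ V → (finrank ℝ (V ⊔ V' : Submodule ℝ (ZZ n)) ≤ 3 → ZInj (V ⊔ V')) →
      ∀ r, r ≠ s → r - s ∈ V → r - s ∈ V' → ∃ u ∈ U, ∃ a : ℝ, r = s + a • (u - s) := by
  classical
  obtain ⟨w₀, m₀, w₁, m₁, a₀, a₁, ne₁, hsp, h0, t₁, ht₁⟩ := h.frame hW hf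
  obtain ⟨T₀, hT₀, hT₀'⟩ := exists_dep_zeros f hf (tl w₀) (tl w₁) t₁ ht₁
  refine ⟨insert (s + w₁) (T₀.image fun t => s + (w₀ + t • w₁)), ?_, ?_⟩
  · exact (Finset.card_insert_le _ _).trans (Nat.add_le_add_right
      (Finset.card_image_le.trans hT₀) 1)
  intro V' T' h' hne hZ r hrs hrV hrV'
  obtain ⟨w₀', m₀', w₁', m₁', a₀', a₁', ne₁', hsp', h0', -, -⟩ := h'.frame hW hf
  obtain ⟨b, hb⟩ := hsp _ hrV
  obtain ⟨b', hb'⟩ := hsp' _ hrV'
  set a := (r - s).1 0 with ha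
  rcases eq_or_ne a 0 with ha0 | ha0
  · refine ⟨s + w₁, Finset.mem_insert_self _ _, b, ?_⟩
    rw [ha0, zero_smul, zero_add] at hb
    rw [add_sub_cancel_left, ← hb, add_sub_cancel]
  -- the sum has dimension at most 3
  have hV_le : V ≤ Submodule.span ℝ ({r - s, w₁, w₁'} : Set (ZZ n)) := by
    intro x hx
    obtain ⟨c, hc⟩ := hsp x hx
    have k1 : r - s ∈ Submodule.span ℝ ({r - s, w₁, w₁'} : Set (ZZ n)) :=
      Submodule.subset_span (by simp)
    have k2 : w₁ ∈ Submodule.span ℝ ({r - s, w₁, w₁'} : Set (ZZ n)) :=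
      Submodule.subset_span (by simp)
    have k3 : w₀ ∈ Submodule.span ℝ ({r - s, w₁, w₁'} : Set (ZZ n)) := by
      have h1 : w₀ = a⁻¹ • ((r - s) - b • w₁) := by
        rw [hb, add_sub_cancel_right, smul_smul, inv_mul_cancel₀ ha0, one_smul]
      rw [h1]
      exact Submodule.smul_mem _ _ (Submodule.sub_mem _ k1 (Submodule.smul_mem _ _ k2))
    rw [hc]
    exact Submodule.add_mem _ (Submodule.smul_mem _ _ k3) (Submodule.smul_mem _ _ k2)
  have hV'_le : V' ≤ Submodule.span ℝ ({r - s, w₁, w₁'} : Set (ZZ n)) := by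
    intro x hx
    obtain ⟨c, hc⟩ := hsp' x hx
    have k1 : r - s ∈ Submodule.span ℝ ({r - s, w₁, w₁'} : Set (ZZ n)) :=
      Submodule.subset_span (by simp)
    have k2 : w₁' ∈ Submodule.span ℝ ({r - s, w₁, w₁'} : Set (ZZ n)) :=
      Submodule.subset_span (by simp)
    have k3 : w₀' ∈ Submodule.span ℝ ({r - s, w₁, w₁'} : Set (ZZ n)) := by
      have h1 : w₀' = a⁻¹ • ((r - s) - b' • w₁') := by
        rw [hb', add_sub_cancel_right, smul_smul, inv_mul_cancel₀ ha0, one_smul]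
      rw [h1]
      exact Submodule.smul_mem _ _ (Submodule.sub_mem _ k1 (Submodule.smul_mem _ _ k2))
    rw [hc]
    exact Submodule.add_mem _ (Submodule.smul_mem _ _ k3) (Submodule.smul_mem _ _ k2)
  have hZ' : ZInj (V ⊔ V') := by
    apply hZ
    refine (Submodule.finrank_mono (sup_le hV_le hV'_le)).trans ?_
    have h1 := finrank_span_finset_le_card (R := ℝ) ({r - s, w₁, w₁'} : Finset (ZZ n))
    rw [Finset.coe_insert, Finset.coe_insert, Finset.coe_singleton] at h1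
    exact h1.trans Finset.card_le_three
  -- the leaf point
  have hx : tl w₀ + (b / a) • tl w₁ = tl w₀' + (b' / a) • tl w₁' := by
    rw [← muv_frame a₀ a₁ ha0, ← muv_frame a₀' a₁' ha0, ← hb, ← hb']
  by_cases hli : LinearIndependent ℝ ![tl w₁, tl w₁']
  · -- dependent gradients
    have h1 : b / a ∈ T₀ := by
      apply hT₀'
      refine not_linInd_of_two hm _ (tl w₁) (tl w₁') (fun j => ?_) (fun j => ?_) hli
      · exact grad_dot_eq_zero _ _ _ (h0 j) _
      · rw [hx]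
        exact grad_dot_eq_zero _ _ _ (h0' j) _
    refine ⟨s + (w₀ + (b / a) • w₁), Finset.mem_insert_of_mem
      (Finset.mem_image_of_mem (fun t => s + (w₀ + t • w₁)) h1), a, ?_⟩
    have h2 : a • (w₀ + (b / a) • w₁) = a • w₀ + b • w₁ := by
      rw [smul_add, smul_smul, mul_div_cancel₀ _ ha0]
    rw [add_sub_cancel_left, h2, ← hb, add_sub_cancel]
  · -- the planes are equal
    exfalso
    apply hne
    rw [LinearIndependent.pair_iff] at hli
    push Not at hli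
    obtain ⟨p, q, hpq, hpq0⟩ := hli
    have m1 : w₁ ∈ V ⊔ V' := Submodule.mem_sup_left m₁
    have m1' : w₁' ∈ V ⊔ V' := Submodule.mem_sup_right m₁'
    have h1 : p • w₁ + q • w₁' = 0 := by
      refine eq_zero_of_tl hZ' (Submodule.add_mem _ (Submodule.smul_mem _ _ m1)
        (Submodule.smul_mem _ _ m1')) ?_ ?_
      · simp only [Prod.fst_add, Prod.smul_fst, Pi.add_apply, Pi.smul_apply, smul_eq_mul, a₁, a₁',
          mul_zero, add_zero]
      · have : tl (p • w₁ + q • w₁') = p • tl w₁ + q • tl w₁' := by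
          funext i
          simp only [tl, Prod.fst_add, Prod.smul_fst, Pi.add_apply, Pi.smul_apply, smul_eq_mul]
        rw [this, hpq]
    have hq : q ≠ 0 := by
      rintro rfl
      rw [zero_smul, add_zero] at h1
      have h2 : p = 0 := (smul_eq_zero.1 h1).resolve_right ne₁
      exact hpq0 h2 rfl
    have hp : p ≠ 0 := by
      rintro rfl
      rw [zero_smul, zero_add] at h1
      exact hq ((smul_eq_zero.1 h1).resolve_right ne₁')
    have e1 : w₁' = (-(p / q)) • w₁ := by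
      have h2 : q • w₁' = -(p • w₁) := by
        rw [eq_neg_iff_add_eq_zero, add_comm]; exact h1
      have h3 : w₁' = q⁻¹ • (q • w₁') := by rw [smul_smul, inv_mul_cancel₀ hq, one_smul]
      rw [h3, h2, smul_neg, smul_smul, neg_smul, div_eq_inv_mul]
    have e2 : w₁ = (-(q / p)) • w₁' := by
      have h2 : p • w₁ = -(q • w₁') := by
        rw [eq_neg_iff_add_eq_zero]; exact h1
      have h3 : w₁ = p⁻¹ • (p • w₁) := by rw [smul_smul, inv_mul_cancel₀ hp, one_smul]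
      rw [h3, h2, smul_neg, smul_smul, neg_smul, div_eq_inv_mul]
    have k1 : w₁' ∈ V := by rw [e1]; exact V.smul_mem _ m₁
    have k2 : w₁ ∈ V' := by rw [e2]; exact V'.smul_mem _ m₁'
    have k3 : w₀' ∈ V := by
      have h2 : w₀' = a⁻¹ • ((r - s) - b' • w₁') := by
        rw [hb', add_sub_cancel_right, smul_smul, inv_mul_cancel₀ ha0, one_smul]
      rw [h2]
      exact V.smul_mem _ (V.sub_mem hrV (V.smul_mem _ k1))
    have k4 : w₀ ∈ V' := by
      have h2 : w₀ = a⁻¹ • ((r - s) - b • w₁) := by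
        rw [hb, add_sub_cancel_right, smul_smul, inv_mul_cancel₀ ha0, one_smul]
      rw [h2]
      exact V'.smul_mem _ (V'.sub_mem hrV' (V'.smul_mem _ k2))
    refine le_antisymm ?_ ?_
    · intro x hx
      obtain ⟨c, hc⟩ := hsp' x hx
      rw [hc]
      exact V.add_mem (V.smul_mem _ k3) (V.smul_mem _ k1)
    · intro x hx
      obtain ⟨c, hc⟩ := hsp x hx
      rw [hc]
      exact V'.add_mem (V'.smul_mem _ k4) (V'.smul_mem _ k2)

end Vale.Agent.P054.T3.H187
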